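import Vale.Agent.P352G75.Lt
import Vale.Agent.P352NA.AFW
import Vale.Agent.P352X.EH.AFW

/-!
# P352G60, row AFW: the new fields are affiliated to the algebras of the wedges (graded case)
-/

set_option linter.all false

open MeasureTheory Filter Topology Set
open scoped SchwartzMap ComplexConjugate

namespace Vale.Agent.P352X.EG.NG

open Vale.Agent.P352 Vale.Agent.P352.GF Vale.Agent.P352.BW Vale.Agent.P352.H246
open Vale.Agent.P352.H496
open Vale.Agent.P352.SubConf (IsAdj)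
open Vale.Agent.P352X.EB
open Vale.Agent.P352X.EB.NA (rv rv_cons rv_rv)
open UniformSpace (Completion)

noncomputable section

variable {D : Type*} [NormedAddCommGroup D] [InnerProductSpace ℂ D] {c : Cg D}

namespace Afw

section tr

variable {K K' : Set V} {ξ ξ' : Completion D}

theorem tr_mono (h : Tr c K ξ ξ') (e : K ⊆ K') : Tr c K' ξ ξ' := by
  induction h with
  | zero => exact .zero
  | fld B B' f a b d hf => exact .fld B B' f a b d (Ap.in_mono hf e)
  | add _ _ _ _ _ _ a b => exact .add _ _ _ _ a b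
  | smul z _ _ _ a => exact .smul z _ _ a

theorem tr_symm (h : Tr c K ξ ξ') : Tr c K ξ' ξ := by
  induction h with
  | zero => exact .zero
  | fld B B' f a b d hf =>
    have := Tr.fld B' B (bar f) b a (H755.adj_symm d) hf.bar
    rwa [Ap.bar_bar] at this
  | add _ _ _ _ _ _ a b => exact .add _ _ _ _ a b
  | smul z _ _ _ a =>
    have := Tr.smul (conj z) _ _ a
    rwa [Complex.conj_conj] at this

variable [Nd c] {e : Bool} {p : Completion D × Completion D} {σ τ : List Bool}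
  {u v w : List (Completion D × Completion D)}

theorem ty_mono (h : Ty c K e p) (a : K ⊆ K') : Ty c K' e p := by
  cases e
  · exact tr_mono h a
  · exact h.imp fun _ h => ⟨Ap.in_mono h.1 a, h.2⟩

theorem ty_swap (h : Ty c K e p) : Ty c K e p.swap := by
  cases e
  · exact tr_symm h
  · obtain ⟨f, a, rfl⟩ := h
    exact ⟨bar f, a.bar, by rw [Ap.bar_bar]; rfl⟩

theorem tw_mono (h : Tw c K σ w) (a : K ⊆ K') : Tw c K' σ w :=
  List.Forall₂.imp (fun _ _ b => ty_mono b a) h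

theorem tw_append (h : Tw c K σ u) (h' : Tw c K τ v) : Tw c K (σ ++ τ) (u ++ v) :=
  List.rel_append h h'

theorem tw_rev (h : Tw c K σ w) : Tw c K σ.reverse (rv w) :=
  List.rel_reverse (List.forall₂_map_right_iff.2 (List.Forall₂.imp (fun _ _ b => ty_swap b) h))

end tr

variable [Nd c] {Λ : Type*} {a b y : V} {x : Lt c Λ} {O : Set V}

theorem W_mem {u : Wd Λ} (hu : TW u) : x.W u ∈ x.Dn := Submodule.subset_span ⟨u, hu, rfl⟩

theorem ind {P : x.Dn → Prop} (h0 : P 0) (h1 : ∀ v w, P v → P w → P (v + w))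
    (h2 : ∀ (z : ℂ) v, P v → P (z • v)) (h3 : ∀ u (hu : TW u), P ⟨x.W u, W_mem hu⟩) (v : x.Dn) :
    P v :=
  Submodule.span_induction (p := fun v hv => P ⟨v, hv⟩) (by rintro _ ⟨u, hu, rfl⟩; exact h3 u hu)
    h0 (fun _ _ _ _ => h1 _ _) (fun z _ _ => h2 z _) v.2

theorem lim1 (e : EXT x) (l : Λ) {f : Fn} {u : Wd Λ} (hf : GF.IsTest f) (hu : TW u) : Tendsto
    (fun R => x.op l (cutf R f) (x.ap (cutw R u) c.Om)) atTop (𝓝 (x.W ((l, f) :: u))) :=
  e.lim _ (NA.Fs.tw_cons hf hu)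

theorem fs_one {P : Λ → Prop} {l : Λ} (h : P l) : x.Fs P (x.o l) :=
  ⟨1, fun _ => l, fun _ => h, by simp⟩

/-- the letters of a word -/
def lw (x : Lt c Λ) (u : Wd Λ) : List (Completion D × Completion D) :=
  u.map fun p => (x.φ p.1 p.2, x.φ (x.dag p.1) (bar p.2))

theorem ap_eq : ∀ u : Wd Λ, x.ap u c.Om = wv c (lw x u)
  | [] => rfl
  | p :: u => congrArg (ml c _) (ap_eq u)

theorem tww : ∀ u : Wd Λ, (∀ p ∈ u, In O p.2) → ∃ K σ, IsCompact K ∧ K ⊆ O ∧ Tw c K σ (lw x u)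
  | [], _ => ⟨∅, [], isCompact_empty, empty_subset _, .nil⟩
  | p :: u, h => by
    obtain ⟨h1, h2⟩ := List.forall_mem_cons.1 h
    obtain ⟨K, σ, k1, k2, k3⟩ := tww u h2
    obtain ⟨e, he⟩ := x.ty p.1
    exact ⟨_, _, h1.2.1.isCompact.union k1, union_subset h1.2.2 k2, .cons
      (he _ _ ⟨h1.1, h1.2.1, subset_union_left⟩) (tw_mono k3 subset_union_right)⟩

theorem cw {u : Wd Λ} (h : ∀ p ∈ u, In O p.2) : CW u := fun p hp => Ap.in_univ' (h p hp)

/-- vectors generated in the region `O` -/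
def Ge (x : Lt c Λ) (O : Set V) : Submodule ℂ x.Dn :=
  Submodule.span ℂ {v | ∃ u : Wd Λ, (∀ p ∈ u, In O p.2) ∧ (v : Completion D) = x.W u}

theorem Ge.ind {P : x.Dn → Prop} (h0 : P 0) (h1 : ∀ v w, P v → P w → P (v + w))
    (h2 : ∀ (z : ℂ) v, P v → P (z • v))
    (h3 : ∀ (v : x.Dn) (u : Wd Λ), (∀ p ∈ u, In O p.2) → (v : Completion D) = x.W u → P v)
    {v : x.Dn} (hv : v ∈ Ge x O) : P v :=
  Submodule.span_induction (p := fun v _ => P v) (by rintro v ⟨u, a, b⟩; exact h3 v u a b) h0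
    (fun _ _ _ _ => h1 _ _) (fun z _ _ => h2 z _) hv

theorem o_zero (F : FS x) (l : Λ) (f : Fn) : x.o l f 0 = 0 := by simpa using F.smul l f 0 0

theorem ge_pw (w : WP x) (F : FS x) {Q : Theory x.Dn} (b1 : (Q.vac : Completion D) = c.Om)
    (b3 : ∀ B, Q.fld B ↔ x.Fs (fun _ => True) B) {v : x.Dn} (hv : P352.PW Q (MW O) v) :
    v ∈ Ge x O := by
  induction hv with
  | vac => exact Submodule.subset_span ⟨[], by simp, b1.trans w.nil.symm⟩
  | add _ _ p q => exact add_mem p q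
  | smul z _ p => exact Submodule.smul_mem _ z p
  | @fld B g v hB hg _ p =>
    obtain ⟨n, l, -, rfl⟩ := (b3 B).1 hB
    refine Submodule.sum_mem _ fun i _ => Ge.ind (P := fun v => x.o (l i) (fl g) v ∈ Ge x O)
      ?_ (fun _ _ p q => ?_) (fun z _ p => ?_) (fun v u a e => ?_) p
    · rw [o_zero F]
      exact zero_mem _
    · rw [F.add]
      exact add_mem p q
    · rw [F.smul]
      exact Submodule.smul_mem _ z p
    · exact Submodule.subset_span ⟨(l i, fl g) :: u, List.forall_mem_cons.2 ⟨In_fl.2 hg, a⟩,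
        F.oW _ _ u v (In_fl.2 hg).1 (NA.CVr.tw_of (cw a)) e⟩

theorem pw_cw (w : WP x) (F : FS x) {Q : Theory x.Dn} (b1 : (Q.vac : Completion D) = c.Om)
    (b3 : ∀ B, Q.fld B ↔ x.Fs (fun _ => True) B) :
    ∀ (u : Wd Λ) (v : x.Dn), CW u → (v : Completion D) = x.W u → P352.PW Q univ v
  | [], v, _, e => by
    rw [show v = Q.vac from Subtype.ext (e.trans (w.nil.trans b1.symm))]
    exact .vac
  | (l, f) :: u, v, h, e => by
    obtain ⟨h1, h2⟩ := NA.CVr.cw_cons.1 h
    obtain ⟨g, rfl, hg⟩ := exists_In h1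
    have k := NA.CVr.tw_of h2
    rw [show v = x.o l (fl g) ⟨_, W_mem k⟩ from
      Subtype.ext (e.trans (F.oW _ _ u _ h1.1 k rfl).symm)]
    exact .fld ((b3 _).2 (fs_one trivial)) hg (pw_cw w F b1 b3 u _ h2 rfl)

theorem word (t : E2 c) (e : EXT x) (ha : IsNull a) (hb : IsNull b) (h : GF.mdot a b = 1) (l : Λ)
    {f : Fn} (hf : In (Wdg a b y) f) {Y : Completion D →L[ℂ] Completion D}
    (hY : Y ∈ (c.N (Wdg a b y)).commutant) {u u' : Wd Λ} (hu : ∀ p ∈ u, In (Wdg a b y) p.2)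
    (hu' : ∀ p ∈ u', In (Wdg a b y) p.2) :
    inner ℂ (x.W ((x.dag l, bar f) :: u')) (Y (x.W u)) =
      inner ℂ (x.W u') (Y (x.W ((l, f) :: u))) := by
  have h1 : ∀ p ∈ (l, f) :: u, In (Wdg a b y) p.2 := List.forall_mem_cons.2 ⟨hf, hu⟩
  have h2 : ∀ p ∈ (x.dag l, bar f) :: u', In (Wdg a b y) p.2 := List.forall_mem_cons.2 ⟨hf.bar, hu'⟩
  rw [e.cw _ (cw h1), e.cw _ (cw h2), e.cw _ (cw hu), e.cw _ (cw hu'), ap_eq, ap_eq, ap_eq, ap_eq]
  obtain ⟨K, σ, k1, k2, k3⟩ := tww (x := x) _ h1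
  obtain ⟨K', σ', l1, l2, l3⟩ := tww (x := x) _ hu'
  obtain ⟨g, eg⟩ := H.Afw.wg t.sg ha hb h y
  have ad : g.Adm (K' ∪ K) := fun z hz => by
    have := union_subset l2 k2 hz
    rwa [← eg] at this
  have s := t.wrd _ _ _ (l1.union k1)
    (tw_append (tw_rev (tw_mono l3 subset_union_left)) (tw_mono k3 subset_union_right))
  have z := H.Afw.cm t.sg (eg ▸ star_mem hY)
  have s1 := MU2.prd t.sg (s _ _ rfl g ad) z
  have s2 := MU2.prd t.sg (s (rv (lw x ((x.dag l, bar f) :: u'))) (lw x u) (by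
    simp [lw, rv_cons, x.dag2, Ap.bar_bar]) g ad) z
  rw [rv_rv, star_inner, star_inner] at s1 s2
  exact s2.symm.trans s1

theorem letter (t : E2 c) (e : EXT x) (w : WP x) (F : FS x) {Q : Theory x.Dn}
    (b1 : (Q.vac : Completion D) = c.Om) (b3 : ∀ B, Q.fld B ↔ x.Fs (fun _ => True) B)
    (ha : IsNull a) (hb : IsNull b) (h : GF.mdot a b = 1) (l : Λ)
    {f : Fn} (hf : In (Wdg a b y) f) {Y : Completion D →L[ℂ] Completion D}
    (hY : Y ∈ (c.N (Wdg a b y)).commutant) (v v' : x.Dn) :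
    inner ℂ (x.o (x.dag l) (bar f) v' : Completion D) (Y v) =
      inner ℂ (v' : Completion D) (Y (x.o l f v)) := by
  have tb := hf.bar.1
  have fo := fun l => (b3 _).2 (fs_one (l := l) trivial)
  have s1 : ∀ v ∈ Ge x (Wdg a b y), ∀ v' ∈ Ge x (Wdg a b y),
      inner ℂ (x.o (x.dag l) (bar f) v' : Completion D) (Y v) =
        inner ℂ (v' : Completion D) (Y (x.o l f v)) := fun v hv v' hv' => by
    refine Ge.ind (P := fun v => inner ℂ (x.o (x.dag l) (bar f) v' : Completion D) (Y v) =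
      inner ℂ (v' : Completion D) (Y (x.o l f v))) (by simp [o_zero F])
      (fun _ _ p q => by rw [F.add]; simp only [Submodule.coe_add, map_add, inner_add_right, p, q])
      (fun _ _ p => by rw [F.smul]; simp only [Submodule.coe_smul, map_smul, inner_smul_right, p])
      (fun v u a1 a2 => ?_) hv
    refine Ge.ind (P := fun v' => inner ℂ (x.o (x.dag l) (bar f) v' : Completion D) (Y v) =
      inner ℂ (v' : Completion D) (Y (x.o l f v))) (by simp [o_zero F])
      (fun _ _ p q => by rw [F.add]; simp only [Submodule.coe_add, inner_add_left, p, q])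
      (fun _ _ p => by rw [F.smul]; simp only [Submodule.coe_smul, inner_smul_left, p])
      (fun v' u' a3 a4 => ?_) hv'
    rw [F.oW _ _ u' _ tb (NA.CVr.tw_of (cw a3)) a4, F.oW _ _ u _ hf.1 (NA.CVr.tw_of (cw a1)) a2,
      a2, a4]
    exact word t e ha hb h l hf hY a1 a3
  have s2 : ∀ v v', P352.PW Q univ v → P352.PW Q univ v' →
      inner ℂ (x.o (x.dag l) (bar f) v' : Completion D) (Y v) =
        inner ℂ (v' : Completion D) (Y (x.o l f v)) := fun v v' hv hv' => by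
    rw [← inner_conj_symm, ← NA.Afw.rs (fo _) tb (NA.Afw.big ha hb h y) (p := Y (x.o l f v))
      (fun v' hv' => ?_) hv', inner_conj_symm]
    rw [← inner_conj_symm, ← star_inner, ← NA.Afw.rs (fo l) hf.1 (NA.Afw.big ha hb h y)
      (p := star Y (x.o (x.dag l) (bar f) v')) (fun v hv => ?_) hv, star_inner, inner_conj_symm]
    rw [star_inner, star_inner]
    exact s1 v (ge_pw w F b1 b3 hv) v' (ge_pw w F b1 b3 hv')
  induction v using ind with
  | h0 => simp [o_zero F]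
  | h1 v v' p q => rw [F.add]; simp only [Submodule.coe_add, map_add, inner_add_right, p, q]
  | h2 z v p => rw [F.smul]; simp only [Submodule.coe_smul, map_smul, inner_smul_right, p]
  | h3 u hu =>
  induction v' using ind with
  | h0 => simp [o_zero F]
  | h1 v v' p q => rw [F.add]; simp only [Submodule.coe_add, inner_add_left, p, q]
  | h2 z v p => rw [F.smul]; simp only [Submodule.coe_smul, inner_smul_left, p]
  | h3 u' hu' =>
  rw [F.oW _ _ u' _ tb hu' rfl, F.oW _ _ u _ hf.1 hu rfl]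
  have yc := fun z => Y.continuous.tendsto z
  refine tendsto_nhds_unique ((lim1 e _ tb hu').inner ((yc _).comp (e.lim u hu)))
    (((e.lim u' hu').inner ((yc _).comp (lim1 e _ hf.1 hu))).congr' ?_)
  obtain ⟨r, hr⟩ := hf.2.1.isCompact.isBounded.subset_closedBall 0
  obtain ⟨r', hr'⟩ := hf.bar.2.1.isCompact.isBounded.subset_closedBall 0
  filter_upwards [eventually_ge_atTop ⌈r⌉₊, eventually_ge_atTop ⌈r'⌉₊] with R hR hR'
  have c1 := NA.Fs.cw_cut t.ana R hu
  have c2 := NA.Fs.cw_cut t.ana R hu'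
  have := s2 _ _ (pw_cw w F b1 b3 _ ⟨_, W_mem (NA.CVr.tw_of c1)⟩ c1 rfl)
    (pw_cw w F b1 b3 _ ⟨_, W_mem (NA.CVr.tw_of c2)⟩ c2 rfl)
  rw [F.oW _ _ _ _ tb (NA.CVr.tw_of c2) rfl, F.oW _ _ _ _ hf.1 (NA.CVr.tw_of c1) rfl,
    e.cw _ (NA.CVr.cw_cons.2 ⟨Ap.in_univ' hf.bar, c2⟩),
    e.cw _ (NA.CVr.cw_cons.2 ⟨Ap.in_univ' hf, c1⟩)] at this
  simp only [e.cw _ c1, e.cw _ c2] at this
  rw [Function.comp_apply, Function.comp_apply,
    t.ana.eq R f (hr.trans (Metric.closedBall_subset_closedBall (by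
      linarith [Nat.ceil_le.1 hR]))),
    t.ana.eq R _ (hr'.trans (Metric.closedBall_subset_closedBall (by
      linarith [Nat.ceil_le.1 hR'])))]
  exact this.symm

end Afw

/-- row AFW -/
theorem afw_row [Nd c] {Λ : Type*} {x : Lt c Λ} (t : E2 c) (e : EXT x) (w : WP x) (F : FS x)
    {Q : Theory x.Dn} (b1 : (Q.vac : Completion D) = c.Om)
    (b3 : ∀ B, Q.fld B ↔ x.Fs (fun _ => True) B) : AfW c.N Q (↑) := by
  intro a b y B B' f ha hb h hB d hf Y hY v v'
  obtain ⟨n, l, -, rfl⟩ := (b3 B).1 hB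
  have d' : IsAdj (fun f v => ∑ i, x.o (l i) f v) fun f v => ∑ i, x.o (x.dag (l i)) f v :=
    fun g p q hg => by simp only [sum_inner, inner_sum, F.herm _ g p q hg]
  rw [EB.Let.adj_uniq d d' hf.bar.1]
  simp only [Submodule.coe_sum, map_sum, sum_inner, inner_sum,
    Afw.letter t e w F b1 b3 ha hb h _ hf hY]

end

end Vale.Agent.P352X.EG.NG
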